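import Vale.Agent.P011.D4X.H553.MixD
import Vale.Agent.P011.D4Y.H319.Even

/-!
Block D4Y: a good parameter `D = u² - 4 s`, so that `s` is the norm of `(u + √D) / 2`; noncyclic
cubic fields.
-/

open NumberField IsDedekindDomain Topology Filter

namespace Vale.Agent.P011.D4Y

open Vale.Agent.P011.Arith Vale.Agent.P011.MPQ Vale.Agent.P011.D4 Vale.Agent.P011.D4X

variable {k L : Type} [Field k] [NumberField k] [Field L] [NumberField L] [Algebra k L]

theorem exists_mixDG {a b : kˣ} {q : Lˣ} (hO : HOdd a q) (hb : Aniso a b) {s : kˣ}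
    (hs : ∀ τ : k →+* ℝ, τ a < 0 → 0 < τ s) (G : Finset kˣ) :
    ∃ (u : k) (D : kˣ), (D : k) = u ^ 2 - 4 * s ∧ GoodD a b q (D : k) ∧
      (∀ τ : k →+* ℝ, τ D < 0 ↔ τ a < 0) ∧ ∀ g ∈ G, ¬ IsSquare ((g * D : kˣ) : k) := by
  classical
  have haS : ¬ IsSquare (a : k) := by
    rintro ⟨r, hr⟩
    have h1 := hb ⟨r, 1, 0, 0⟩ (by
      simp only [nrd]
      rw [hr]
      ring)
    have h2 := congrArg QuaternionAlgebra.imI h1
    exact one_ne_zero (α := k) h2
  obtain ⟨v0, -, -⟩ := exists_nonsplit a haS ∅ Set.finite_empty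
  choose below hbelow using fun w : HeightOneSpectrum (𝓞 L) => Sch.exists_below (F := k) w
  obtain ⟨R, hR⟩ : ∃ R : Set (HeightOneSpectrum (𝓞 L)), R = {w | Ram (up L a) q w} ∪
    {w | Ram (up L a) (q * up L b) w} := ⟨_, rfl⟩
  have hRf : R.Finite := by
    rw [hR]
    exact (ram_finite _ _).union (ram_finite _ _)
  obtain ⟨S, hS⟩ : ∃ S : Set (HeightOneSpectrum (𝓞 k)), S = {v | Ram a b v} ∪
    below '' R ∪ {v0} := ⟨_, rfl⟩
  have hSf : S.Finite := by
    rw [hS]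
    exact ((ram_finite _ _).union (hRf.image _)).union (Set.finite_singleton _)
  have hSv0 : v0 ∈ S := by
    rw [hS]
    exact Or.inr rfl
  have hSb : ∀ v, Ram a b v → v ∈ S := fun v hv => by
    rw [hS]
    exact Or.inl (Or.inl hv)
  have hSR : ∀ w ∈ R, below w ∈ S := fun w hw => by
    rw [hS]
    exact Or.inl (Or.inr ⟨w, hw, rfl⟩)
  -- the auxiliary places
  have hVex : ∀ g : kˣ, ∃ v : HeightOneSpectrum (𝓞 k), v ∉ S ∧
      (¬ IsSquare (g : k) → g ∉ LS (v.valuation k)) := by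
    intro g
    by_cases hg : IsSquare (g : k)
    · obtain ⟨v, hv, -⟩ := exists_nonsplit a haS S hSf
      exact ⟨v, hv, fun h => absurd hg h⟩
    · obtain ⟨v, hv, h⟩ := exists_nonsplit g hg S hSf
      exact ⟨v, hv, fun _ => h⟩
  choose V hVS hV using hVex
  obtain ⟨T, hT⟩ : ∃ T : Set (HeightOneSpectrum (𝓞 k)), T = V '' (G : Set kˣ) := ⟨_, rfl⟩
  have hTf : T.Finite := by
    rw [hT]
    exact (Finset.finite_toSet G).image _
  have hTS : ∀ v ∈ T, v ∉ S := by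
    rw [hT]
    rintro v ⟨g, -, rfl⟩
    exact hVS g
  have hgood : ∀ D : kˣ, (∀ v ∈ S, D ∉ LS (v.valuation k)) → (∀ τ : k →+* ℝ, τ D < 0 ↔ τ a < 0) →
      GoodD a b q (D : k) := by
    intro D hD hs
    have h1 : ∀ w ∈ R, up L D ∉ LS (w.valuation L) := fun w hw h => by
      refine hD _ (hSR w hw) ?_
      rw [hR] at hw
      rcases hw with hw | hw
      · exact hO _ w (hbelow w) hw D h
      · exact H319.ram_odd' hO (hbelow w) hw D h
    exact goodD_of (fun v hv => hD v (hSb v hv)) (fun w hw => h1 w (by rw [hR]; exact Or.inl hw))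
      (fun w hw => h1 w (by rw [hR]; exact Or.inr hw)) (fun τ h => (hs τ).mpr h)
      (fun τ h => (hs τ).mp h)
  -- the local targets
  have hloc : ∀ p : Pl k, ∃ (u : k) (D : kˣ), (D : k) = u ^ 2 - 4 * s ∧
      (∀ v, p = Sum.inl v → (v ∈ S → D ∉ LS (v.valuation k)) ∧
        (v ∉ S → D ∈ LS (v.valuation k))) ∧
      (∀ τ, p = Sum.inr τ → (τ D < 0 ↔ τ a < 0)) := by
    rintro (v | τ)
    · by_cases hv : v ∈ S
      · obtain ⟨u, D, h1, h2⟩ := MixD.loc_u v s
        refine ⟨u, D, h1, fun v' hv' => ?_, fun τ hτ => by simp at hτ⟩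
        obtain rfl := Sum.inl_injective hv'
        exact ⟨fun _ => h2, fun h => absurd hv h⟩
      · obtain ⟨u, D, h1, h2⟩ := MixD.loc_u' v s
        refine ⟨u, D, h1, fun v' hv' => ?_, fun τ hτ => by simp at hτ⟩
        obtain rfl := Sum.inl_injective hv'
        exact ⟨fun h => absurd h hv, fun _ => h2⟩
    · by_cases ha : τ a < 0
      · obtain ⟨u, D, h1, h2⟩ := MixD.real_u τ s (hs τ ha)
        refine ⟨u, D, h1, fun v' hv' => by simp at hv', fun τ' hτ => ?_⟩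
        obtain rfl := Sum.inr_injective hτ
        exact ⟨fun _ => ha, fun _ => h2⟩
      · obtain ⟨u, D, h1, h2⟩ := MixD.real_u' τ s
        refine ⟨u, D, h1, fun v' hv' => by simp at hv', fun τ' hτ => ?_⟩
        obtain rfl := Sum.inr_injective hτ
        exact ⟨fun h => absurd h2 (not_lt.mpr h.le), fun h => absurd h ha⟩
  choose u0 D0 hu0 hfin hre using hloc
  choose δ hδ hnear using fun p : Pl k => MixD.near_D p (u0 p) s (D0 p) (hu0 p)
  have hTf : (SP (S ∪ T)).Finite := SP_finite (hSf.union hTf)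
  obtain ⟨u, hu⟩ := approx (SP (S ∪ T)) hTf u0 δ hδ
  have hD0 : u ^ 2 - 4 * (s : k) ≠ 0 :=
    (hnear _ u (hu (Sum.inl v0) (inl_mem_SP.mpr (Or.inl hSv0))) _ rfl).1
  obtain ⟨D, hD⟩ : ∃ D : kˣ, D = Units.mk0 _ hD0 := ⟨_, rfl⟩
  have hcl : ∀ p ∈ SP (S ∪ T), D * D0 p ∈ LSp p := fun p hp => by
    rw [hD]
    exact (hnear _ u (hu p hp) _ rfl).2 hD0
  have hDS : ∀ v ∈ S, D ∉ LS (v.valuation k) := by
    intro v hv h
    have h1 : D * D0 (Sum.inl v) ∈ LS (v.valuation k) :=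
      hcl (Sum.inl v) (inl_mem_SP.mpr (Or.inl hv))
    have h2 := mul_mem (inv_mem h) h1
    rw [inv_mul_cancel_left] at h2
    exact (hfin (Sum.inl v) v rfl).1 hv h2
  have hDT : ∀ v ∈ T, D ∈ LS (v.valuation k) := by
    intro v hv
    have h1 : D * D0 (Sum.inl v) ∈ LS (v.valuation k) :=
      hcl (Sum.inl v) (inl_mem_SP.mpr (Or.inr hv))
    have h2 := mul_mem h1 (inv_mem ((hfin (Sum.inl v) v rfl).2 (hTS v hv)))
    rwa [mul_inv_cancel_right] at h2
  have hDr : ∀ τ : k →+* ℝ, τ D < 0 ↔ τ a < 0 := by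
    intro τ
    have h1 : 0 < τ ((D * D0 (Sum.inr τ) : kˣ) : k) := hcl (Sum.inr τ) inr_mem_SP
    rw [Units.val_mul, map_mul] at h1
    rw [← hre (Sum.inr τ) τ rfl]
    rcases mul_pos_iff.mp h1 with ⟨h2, h4⟩ | ⟨h2, h4⟩
    · exact ⟨fun h => absurd h2 (not_lt.mpr h.le), fun h => absurd h4 (not_lt.mpr h.le)⟩
    · exact ⟨fun _ => h4, fun _ => h2⟩
  refine ⟨u, D, by rw [hD, Units.val_mk0], hgood D hDS hDr, hDr, fun g hg h => ?_⟩
  by_cases hgs : IsSquare (g : k)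
  · have h1 : g ∈ LS (v0.valuation k) := Sq_le_LS _ (mem_Sq_iff.mpr hgs)
    have h2 : g * D ∈ LS (v0.valuation k) := Sq_le_LS _ (mem_Sq_iff.mpr h)
    have h3 := mul_mem (inv_mem h1) h2
    rw [inv_mul_cancel_left] at h3
    exact hDS v0 hSv0 h3
  · have h1 : D ∈ LS ((V g).valuation k) := hDT _ (by
      rw [hT]
      exact ⟨g, hg, rfl⟩)
    have h2 : g * D ∈ LS ((V g).valuation k) := Sq_le_LS _ (mem_Sq_iff.mpr h)
    have h3 := mul_mem h2 (inv_mem h1)
    rw [mul_inv_cancel_right] at h3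
    exact hV g hgs h3

end Vale.Agent.P011.D4Y
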